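import Vale.Agent.P092.H345.Trick

/-!
P092 (helper345), [TA-5]: commutativity of `𝒬` and minimal projections give boxes of arbitrarily
small levels.
-/

set_option linter.all false
set_option autoImplicit false

namespace Vale.Agent.P092.H345

open Vale.Agent.P092.H432.TA
open scoped InnerProductSpace
open ContinuousLinearMap Filter Topology

variable {H : Type*} [NormedAddCommGroup H] [InnerProductSpace ℂ H] [CompleteSpace H]
variable {A B : Type*} [Group A] [Group B]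
variable {S : A →* (H →L[ℂ] H)} {R : B →* (H →L[ℂ] H)} {W : Set (H →L[ℂ] H)}
variable {cA : Set (Subgroup A)} {cB : Set (Subgroup B)}

/-- commutativity of `𝒬` -/
def Cmt (S : A →* (H →L[ℂ] H)) (R : B →* (H →L[ℂ] H)) (W : Set (H →L[ℂ] H))
    (cA : Set (Subgroup A)) (cB : Set (Subgroup B)) : Prop :=
  ∀ x ∈ QQ S R W cA cB, ∀ y ∈ QQ S R W cA cB, x * y = y * x

theorem cmt_symm (h : Cmt S R W cA cB) : Cmt R S W cB cA :=
  fun x hx y hy => h x (mem_QQ_symm.2 hx) y (mem_QQ_symm.2 hy)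

/-- A minimal projection of `𝒬^V` whose `S`-translates outside `U` are orthogonal. -/
structure SAt (S : A →* (H →L[ℂ] H)) (R : B →* (H →L[ℂ] H)) (W : Set (H →L[ℂ] H))
    (cA : Set (Subgroup A)) (V : Subgroup B) (U : Subgroup A) (z : H →L[ℂ] H) : Prop where
  U_mem : U ∈ cA
  mem : z ∈ Q S R W U V
  prj : Prj z
  ne : z ≠ 0
  sepS : ∀ a, a ∉ U → z * (S a * z * S a⁻¹) = 0
  minR : ∀ U' ∈ cA, ∀ x ∈ Q S R W U' V, ∃ c : ℂ, z * x * z = c • z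

theorem not_rfin_one (hR : ∀ b, adjoint (R b) = R b⁻¹) {V : Subgroup B} (hV : V.index = 0)
    (h1 : (1 : H →L[ℂ] H) ≠ 0) : ¬ RFin R V (1 : H →L[ℂ] H) := by
  rintro ⟨C, hC⟩
  haveI : Infinite (B ⧸ V) := by
    rw [← not_finite_iff_infinite]
    intro hf
    haveI := hf
    exact Subgroup.index_ne_zero_of_finite hV
  obtain ⟨ξ, hξ⟩ : ∃ ξ : H, ξ ≠ 0 := by
    by_contra h; push Not at h
    exact h1 (ContinuousLinearMap.ext fun ξ => by rw [h ξ, map_zero, map_zero])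
  have hξ' : 0 < ‖ξ‖ ^ 2 := by positivity
  obtain ⟨n, hn⟩ := exists_nat_gt C
  obtain ⟨F, hF⟩ := Infinite.exists_subset_card_eq (B ⧸ V) n
  have h2 := hC F ξ
  have h3 : ∑ q ∈ F, ‖(1 : H →L[ℂ] H) (R q.out⁻¹ ξ)‖ ^ 2 = n * ‖ξ‖ ^ 2 := by
    rw [← hF, ← nsmul_eq_mul, ← Finset.sum_const]
    refine Finset.sum_congr rfl fun q _ => ?_
    change ‖R q.out⁻¹ ξ‖ ^ 2 = _
    rw [norm_S hR]
  rw [h3] at h2
  have := le_of_mul_le_mul_right h2 hξ'
  linarith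

theorem exists_SAt (hS : Sys S R W) (hA : GIn cA) (hB : GIn cB) (hE : Erg S R W cA cB)
    (hc : Cmt S R W cA cB) {V : Subgroup B} (hV : V ∈ cB) {e : H →L[ℂ] H}
    (hm : MinP S R W cA V e) (hr : RFin R V e) : ∃ U, SAt S R W cA V U e := by
  obtain ⟨U₁, hU₁, he⟩ := hm.mem
  have hd := eq_or_orth (S := S) hm.prj
    (fun a => hc _ (QV_le_QQ hV hm.mem) _ (QV_le_QQ hV (QV_adS hS hA hm.mem a)))
    (fun a => hm.min _ (QV_adS hS hA hm.mem a))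
  have h1 : stab S e ∈ cA ∨ stab S e = ⊤ :=
    hA.g1 _ ⟨U₁, hU₁, fun a ha => ad_eq he ha⟩
  have h2 : stab S e ∈ cA := by
    rcases h1 with h1 | h1
    · exact h1
    exfalso
    have h3 : e ∈ Q S R W ⊤ V := ⟨fun a _ => comm_of_ad (mem_stab.1 (by rw [h1]; trivial)),
      he.2.1, he.2.2⟩
    obtain ⟨c, hcc⟩ := hE.E2 V hV e h3
    have h4 := eq_one_of_scalar hm.prj.idem hm.ne hcc
    rw [h4] at hr
    exact not_rfin_one hS.Radj (hB.inf_index V hV) (by rw [← h4]; exact hm.ne) hr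
  exact ⟨stab S e, h2, ⟨fun a ha => comm_of_ad ha, he.2.1, he.2.2⟩, hm.prj, hm.ne,
    fun a ha => (hd a).resolve_right ha, fun U' hU' x hx => hm.min x ⟨U', hU', hx⟩⟩

theorem SAt_adS (hS : Sys S R W) (hA : GIn cA) {V : Subgroup B} {U : Subgroup A}
    {z : H →L[ℂ] H} (h : SAt S R W cA V U z) (a : A) : ∃ U', SAt S R W cA V U' (ad S a z) := by
  obtain ⟨U', hU', hm⟩ := hA.conj U h.U_mem a
  refine ⟨U', hU', Q_adS hS h.mem fun g hg => (hm g).1 hg, prj_ad hS.Sadj a h.prj,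
    ad_ne_zero h.ne, fun g hg => ?_, fun U₁ hU₁ x hx => ?_⟩
  · have h1 : a⁻¹ * g * a ∉ U := fun h' => hg ((hm g).2 h')
    have h2 := congrArg (ad S a) (h.sepS _ h1)
    rw [ad_mul, ad_zero] at h2
    have h3 : ad S a (S (a⁻¹ * g * a) * z * S (a⁻¹ * g * a)⁻¹) = ad S g (ad S a z) := by
      change ad S a (ad S (a⁻¹ * g * a) z) = _
      rw [ad_ad, ad_ad]; congr 1; group
    rw [h3] at h2
    exact h2
  · obtain ⟨U₂, hU₂, hm₂⟩ := hA.conj U₁ hU₁ a⁻¹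
    obtain ⟨c, hcc⟩ := h.minR U₂ hU₂ (ad S a⁻¹ x) (Q_adS hS hx fun g hg => (hm₂ g).1 hg)
    refine ⟨c, ?_⟩
    have h2 := congrArg (ad S a) hcc
    rw [ad_mul, ad_mul, ad_ad_inv, ad_smul] at h2
    exact h2

theorem box_of_SAt (hS : Sys S R W) (hA : GIn cA) (hB : GIn cB) (hE : Erg S R W cA cB)
    (hc : Cmt S R W cA cB) {V : Subgroup B} (hV : V ∈ cB) {U : Subgroup A} {z : H →L[ℂ] H}
    (h : SAt S R W cA V U z) : ∃ L, V ≤ L ∧ Box S R W cA cB U L z := by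
  have hzQ : z ∈ QQ S R W cA cB := ⟨U, h.U_mem, V, hV, h.mem⟩
  have hmin : ∀ V' ∈ cB, ∀ x ∈ Q S R W U V', ∃ c : ℂ, z * x * z = c • z := fun V' hV' x hx => by
    have hVV := hB.inf V hV V' hV'
    refine trick hS (hE.E2 _ hVV) h.prj (fun a ha => ad_eq h.mem ha) h.sepS
      (V := V ⊓ V') ?_ ?_
    · exact Q_mul (Q_mul (Q_mono le_rfl inf_le_left h.mem) (Q_mono le_rfl inf_le_right hx))
        (Q_mono le_rfl inf_le_left h.mem)
    · calc z * (z * x * z) * z = (z * z) * x * (z * z) := by simp only [mul_assoc]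
        _ = _ := by rw [h.prj.idem]
  have hd := eq_or_orth (S := R) h.prj
    (fun b => hc _ hzQ _ (QQ_adR hS hB hzQ b))
    (fun b => by
      obtain ⟨V', hV', hm⟩ := hB.conj V hV b
      exact hmin V' hV' _ (Q_adR hS h.mem fun g hg => (hm g).1 hg))
  have h1 : stab R z ∈ cB ∨ stab R z = ⊤ :=
    hB.g1 _ ⟨V, hV, fun b hb => ad_eq (mem_Q_symm.1 h.mem) hb⟩
  have h2 : stab R z ∈ cB := by
    rcases h1 with h1 | h1
    · exact h1
    exfalso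
    have h3 : z ∈ Q S R W U ⊤ := ⟨h.mem.1,
      fun b _ => comm_of_ad (S := R) (mem_stab.1 (by rw [h1]; trivial)), h.mem.2.2⟩
    obtain ⟨c, hcc⟩ := hE.E1 U h.U_mem z h3
    have h4 := eq_one_of_scalar h.prj.idem h.ne hcc
    obtain ⟨a, ha⟩ : ∃ a, a ∉ U := by
      by_contra hcon; push Not at hcon
      exact hA.top (by rw [← (eq_top_iff.2 fun a _ => hcon a : U = ⊤)]; exact h.U_mem)
    have h5 := h.sepS a ha
    rw [h4, one_mul, mul_one, mul_inv'] at h5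
    rw [h4] at h
    exact h.ne h5
  have hVL : V ≤ stab R z := fun b hb => ad_eq (mem_Q_symm.1 h.mem) hb
  exact ⟨stab R z, hVL, h.U_mem, h2,
    ⟨h.mem.1, fun b hb => comm_of_ad (S := R) hb, h.mem.2.2⟩, h.prj, h.ne,
    fun x hx => hc _ hx _ hzQ, h.sepS, fun b hb => (hd b).resolve_right hb, hmin,
    fun U' hU' x hx => h.minR U' hU' x (Q_mono le_rfl hVL hx)⟩

/-- A minimal projection under a nonzero projection of `𝒬`. -/
theorem SAt_below (hS : Sys S R W) (hA : GIn cA) (hE : Erg S R W cA cB)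
    (hc : Cmt S R W cA cB) {V : Subgroup B} (hV : V ∈ cB) {U : Subgroup A} {z : H →L[ℂ] H}
    (h : SAt S R W cA V U z) {U₁ : Subgroup A} (hU₁ : U₁ ∈ cA) {f : H →L[ℂ] H}
    (hf : f ∈ Q S R W U₁ V) (hfp : Prj f) (hf0 : f ≠ 0) :
    ∃ U' z', SAt S R W cA V U' z' ∧ f * z' = z' := by
  obtain ⟨a, ha⟩ := joinS hS (hE.E2 V hV) hf hf0 h.ne
  obtain ⟨U', h'⟩ := SAt_adS hS hA h a
  refine ⟨U', _, h', ?_⟩
  have hfc : ad S a z * f = f * ad S a z :=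
    hc _ ⟨U', h'.U_mem, V, hV, h'.mem⟩ _ ⟨U₁, hU₁, V, hV, hf⟩
  obtain ⟨c, hcc⟩ := h'.minR U₁ hU₁ f hf
  rcases dich h'.prj hfp.idem hfc hcc with h1 | h1
  · exfalso
    refine ha ?_
    have h2 : f * ad S a z * S a = 0 := by rw [← hfc, h1, zero_mul]
    rw [ad_def] at h2
    calc f * S a * z = f * (S a * z * S a⁻¹) * S a := by
          simp only [mul_assoc, inv_mul', mul_one]
      _ = 0 := h2
  · rw [← hfc, h1]

theorem ad_join {f z : H →L[ℂ] H} {a : A} (h : z * S a * f ≠ 0) : ad S a⁻¹ z * f ≠ 0 := fun h0 =>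
  h (by
    calc z * S a * f = S a * (ad S a⁻¹ z * f) := by
          rw [ad_def, inv_inv]
          simp only [mul_assoc, mul_inv_a]
      _ = 0 := by rw [h0, mul_zero])

/-- The size step, over `A`. -/
theorem shrinkS (hS : Sys S R W) (hA : GIn cA) (hB : GIn cB) (hE : Erg S R W cA cB)
    (hc : Cmt S R W cA cB) {U : Subgroup A} {V : Subgroup B} (hU : U ∈ cA) (hV : V ∈ cB)
    {z : H →L[ℂ] H}
    (hz : z ∈ Q S R W U V) (hzp : Prj z) (hz0 : z ≠ 0) (s : Finset A) {f : H →L[ℂ] H}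
    (hf : f ∈ QQ S R W cA cB) (hfp : Prj f) (hf0 : f ≠ 0) :
    ∃ g ∈ QQ S R W cA cB, Prj g ∧ g ≠ 0 ∧ f * g = g ∧
      ∀ h ∈ s, ∃ b, ad S h (ad R b z) * g = g := by
  classical
  induction s using Finset.induction_on with
  | empty => exact ⟨f, hf, hfp, hf0, hfp.idem, by simp⟩
  | insert h s hs ih =>
    obtain ⟨g, hg, hgp, hg0, hfg, hgs⟩ := ih
    obtain ⟨U', hU', hm⟩ := hA.conj U hU h
    have hzh : ad S h z ∈ Q S R W U' V := Q_adS hS hz fun x hx => (hm x).1 hx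
    obtain ⟨b, hb⟩ := joinR hS (hE.E1 U' hU') hzh (ad_ne_zero hz0) hg0
    have hb' := ad_join (S := R) hb
    rw [← ad_comm hS] at hb'
    set x := ad S h (ad R b⁻¹ z) with hx
    have hxQ : x ∈ QQ S R W cA cB := QQ_adS hS hA (QQ_adR hS hB ⟨U, hU, V, hV, hz⟩ _) _
    have hxp : Prj x := prj_ad hS.Sadj _ (prj_ad hS.Radj _ hzp)
    have hxg : x * g = g * x := hc _ hxQ _ hg
    refine ⟨x * g, QQ_mul hA hB hxQ hg, prj_mul hxp hgp hxg, hb', ?_, ?_⟩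
    · rw [hxg, ← mul_assoc, hfg]
    · intro k hk
      rcases Finset.mem_insert.1 hk with rfl | hk
      · exact ⟨b⁻¹, by rw [← hx, ← mul_assoc, hxp.idem]⟩
      · obtain ⟨b', hb'⟩ := hgs k hk
        refine ⟨b', ?_⟩
        rw [hxg, ← mul_assoc, hb']

theorem small_of_le (hS : Sys S R W) {U U₀ : Subgroup A} {s : Finset A}
    (hs : ∀ x, (∀ h ∈ s, h⁻¹ * x * h ∈ U) → x ∈ U₀) {z : H →L[ℂ] H}
    (hsep : ∀ a, a ∉ U → z * (S a * z * S a⁻¹) = 0) {g z' : H →L[ℂ] H} (hz' : Prj z')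
    (hz0 : z' ≠ 0) (hgz : g * z' = z') (hg : ∀ h ∈ s, ∃ b, ad S h (ad R b z) * g = g)
    (hp : Prj z) {U' : Subgroup A}
    (hU' : ∀ a ∈ U', ad S a z' = z') : U' ≤ U₀ := by
  intro a ha
  refine hs a fun h hh => ?_
  by_contra hcon
  obtain ⟨b, hb⟩ := hg h hh
  have h1 := congrArg (fun t => ad S h (ad R b t)) (hsep _ hcon)
  beta_reduce at h1
  rw [ad_mul, ad_mul, ad_zero, ad_zero] at h1
  have h2 : ad S h (ad R b (S (h⁻¹ * a * h) * z * S (h⁻¹ * a * h)⁻¹)) =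
      ad S a (ad S h (ad R b z)) := by
    change ad S h (ad R b (ad S (h⁻¹ * a * h) z)) = _
    rw [← ad_comm hS, ad_ad, ad_ad]; congr 1; group
  rw [h2] at h1
  have h3 : ad S h (ad R b z) * z' = z' := by
    rw [← hgz, ← mul_assoc, hb]
  have h3' : z' * ad S h (ad R b z) = z' := by
    have e1 : ∀ x y : H →L[ℂ] H, adjoint (x * y) = adjoint y * adjoint x := fun x y =>
      ContinuousLinearMap.adjoint_comp x y
    have h4 := congrArg adjoint h3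
    rwa [e1, hz'.adj, (prj_ad hS.Sadj h (prj_ad hS.Radj b hp)).adj] at h4
  have h5 : ad S a (ad S h (ad R b z)) * z' = z' := by
    have h6 := congrArg (ad S a) h3
    rwa [ad_mul, hU' a ha] at h6
  have h7 : z' = 0 := by
    calc z' = z' * z' := hz'.idem.symm
      _ = (z' * ad S h (ad R b z)) * (ad S a (ad S h (ad R b z)) * z') := by rw [h3', h5]
      _ = z' * (ad S h (ad R b z) * ad S a (ad S h (ad R b z))) * z' := by
          simp only [mul_assoc]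
      _ = 0 := by rw [h1, mul_zero, zero_mul]
  exact hz0 h7

/-- Under every nonzero projection of `𝒬` there is a box of arbitrarily small level. -/
theorem exists_box_le (hS : Sys S R W) (hA : GIn cA) (hB : GIn cB) (hE : Erg S R W cA cB)
    (hc : Cmt S R W cA cB) {V₀₀ : Subgroup B} (hV₀₀ : V₀₀ ∈ cB)
    (hm : ∀ V ∈ cB, V ≤ V₀₀ → ∃ e, MinP S R W cA V e ∧ RFin R V e)
    {U₀ : Subgroup A} (hU₀ : U₀ ∈ cA) {V₀ : Subgroup B} (hV₀ : V₀ ∈ cB)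
    {f : H →L[ℂ] H} (hf : f ∈ QQ S R W cA cB) (hfp : Prj f) (hf0 : f ≠ 0) :
    ∃ U ≤ U₀, ∃ V ≤ V₀, ∃ z, Box S R W cA cB U V z ∧ f * z = z := by
  obtain ⟨e, he, her⟩ := hm V₀₀ hV₀₀ le_rfl
  obtain ⟨U, hU⟩ := exists_SAt hS hA hB hE hc hV₀₀ he her
  obtain ⟨V, hVV, hbox⟩ := box_of_SAt hS hA hB hE hc hV₀₀ hU
  obtain ⟨s, hs⟩ := hA.g5 U hbox.U_mem U₀ hU₀
  obtain ⟨t, ht⟩ := hB.g5 V hbox.V_mem V₀ hV₀
  obtain ⟨g, hg, hgp, hg0, hfg, hgs⟩ := shrinkS hS hA hB hE hc hbox.U_mem hbox.V_mem hbox.mem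
    hbox.prj hbox.ne s hf hfp hf0
  obtain ⟨k, hk, hkp, hk0, hgk, hkt⟩ := shrinkS (sys_symm hS) hB hA (erg_symm hE) (cmt_symm hc)
    hbox.V_mem hbox.U_mem (mem_Q_symm.1 hbox.mem) hbox.prj hbox.ne t (mem_QQ_symm.1 hg) hgp hg0
  obtain ⟨V₁, hV₁, U₁, hU₁, hkQ⟩ := hk
  have hV₂ := hB.inf V₁ hV₁ V₀₀ hV₀₀
  obtain ⟨e₂, he₂, her₂⟩ := hm _ hV₂ inf_le_right
  obtain ⟨U₂, hU₂⟩ := exists_SAt hS hA hB hE hc hV₂ he₂ her₂
  obtain ⟨U₃, z, hz, hkz⟩ := SAt_below hS hA hE hc hV₂ hU₂ hU₁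
    (Q_mono le_rfl inf_le_left (mem_Q_symm.1 hkQ)) hkp hk0
  obtain ⟨L, hL, hzb⟩ := box_of_SAt hS hA hB hE hc hV₂ hz
  have hgz : g * z = z := by rw [← hkz, ← mul_assoc, hgk]
  refine ⟨U₃, ?_, L, ?_, z, hzb, ?_⟩
  · exact small_of_le hS hs hbox.sepS hzb.prj hzb.ne hgz hgs hbox.prj
      fun a ha => ad_eq hzb.mem ha
  · exact small_of_le (sys_symm hS) ht hbox.sepR hzb.prj hzb.ne hkz hkt hbox.prj
      fun a ha => ad_eq (mem_Q_symm.1 hzb.mem) ha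
  · rw [← hgz, ← mul_assoc, hfg]

/-- [TA-5] -/
theorem exists_box (hS : Sys S R W) (hA : GIn cA) (hB : GIn cB) (hE : Erg S R W cA cB)
    (hc : ∀ x ∈ QQ S R W cA cB, ∀ y ∈ QQ S R W cA cB, x * y = y * x)
    {V₀₀ : Subgroup B} (hV₀₀ : V₀₀ ∈ cB)
    (hm : ∀ V ∈ cB, V ≤ V₀₀ → ∃ e, MinP S R W cA V e ∧ RFin R V e) :
    ∀ U₀ ∈ cA, ∀ V₀ ∈ cB, ∃ U ≤ U₀, ∃ V ≤ V₀, ∃ z, Box S R W cA cB U V z := by
  intro U₀ hU₀ V₀ hV₀
  obtain ⟨e, he, her⟩ := hm V₀₀ hV₀₀ le_rfl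
  obtain ⟨U, hU, V, hV, z, hz, -⟩ := exists_box_le hS hA hB hE hc hV₀₀ hm hU₀ hV₀
    (QV_le_QQ hV₀₀ he.mem) he.prj he.ne
  exact ⟨U, hU, V, hV, z, hz⟩

/-! ### Translates of boxes -/

theorem box_adS (hS : Sys S R W) (hA : GIn cA) (hB : GIn cB) {U : Subgroup A} {V : Subgroup B}
    {z : H →L[ℂ] H} (h : Box S R W cA cB U V z) (a : A) :
    ∃ U' ∈ cA, (∀ x, x ∈ U' ↔ a⁻¹ * x * a ∈ U) ∧ Box S R W cA cB U' V (ad S a z) := by
  obtain ⟨U', hU', hm⟩ := hA.conj U h.U_mem a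
  refine ⟨U', hU', hm, hU', h.V_mem, Q_adS hS h.mem fun g hg => (hm g).1 hg,
    prj_ad hS.Sadj a h.prj, ad_ne_zero h.ne, fun x hx => ?_, fun g hg => ?_, fun b hb => ?_,
    fun V' hV' x hx => ?_, fun U₁ hU₁ x hx => ?_⟩
  · have h1 := h.comm _ (QQ_adS hS hA hx a⁻¹)
    have h2 := congrArg (ad S a) h1
    rwa [ad_mul, ad_mul, ad_ad_inv] at h2
  · have h1 : a⁻¹ * g * a ∉ U := fun h' => hg ((hm g).2 h')
    have h2 := congrArg (ad S a) (h.sepS _ h1)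
    rw [ad_mul, ad_zero] at h2
    have h3 : ad S a (S (a⁻¹ * g * a) * z * S (a⁻¹ * g * a)⁻¹) = ad S g (ad S a z) := by
      change ad S a (ad S (a⁻¹ * g * a) z) = _
      rw [ad_ad, ad_ad]; congr 1; group
    rw [h3] at h2
    exact h2
  · have h2 := congrArg (ad S a) (h.sepR b hb)
    rw [ad_mul, ad_zero] at h2
    have h3 : ad S a (R b * z * R b⁻¹) = ad R b (ad S a z) := ad_comm hS a b z
    rw [h3] at h2
    exact h2
  · obtain ⟨c, hcc⟩ := h.minS V' hV' (ad S a⁻¹ x) (Q_adS hS hx fun g hg => (hm _).2 (by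
      simpa [mul_assoc] using hg))
    refine ⟨c, ?_⟩
    have h2 := congrArg (ad S a) hcc
    rwa [ad_mul, ad_mul, ad_ad_inv, ad_smul] at h2
  · obtain ⟨U₂, hU₂, hm₂⟩ := hA.conj U₁ hU₁ a⁻¹
    obtain ⟨c, hcc⟩ := h.minR U₂ hU₂ (ad S a⁻¹ x) (Q_adS hS hx fun g hg => (hm₂ g).1 hg)
    refine ⟨c, ?_⟩
    have h2 := congrArg (ad S a) hcc
    rwa [ad_mul, ad_mul, ad_ad_inv, ad_smul] at h2

theorem box_adR (hS : Sys S R W) (hA : GIn cA) (hB : GIn cB) {U : Subgroup A} {V : Subgroup B}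
    {z : H →L[ℂ] H} (h : Box S R W cA cB U V z) (b : B) :
    ∃ V' ∈ cB, (∀ x, x ∈ V' ↔ b⁻¹ * x * b ∈ V) ∧ Box S R W cA cB U V' (ad R b z) := by
  obtain ⟨V', hV', hm, hb⟩ := box_adS (sys_symm hS) hB hA (box_symm h) b
  exact ⟨V', hV', hm, box_symm hb⟩

/-- a projection of level `(U, ·)` either contains the box or is orthogonal to it -/
theorem box_dichS {U : Subgroup A} {V : Subgroup B}
    {z : H →L[ℂ] H} (h : Box S R W cA cB U V z) (hA : U ∈ cA) {V' : Subgroup B} (hV' : V' ∈ cB)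
    {x : H →L[ℂ] H} (hx : x ∈ Q S R W U V') (hxx : x * x = x) : z * x = 0 ∨ z * x = z := by
  obtain ⟨c, hcc⟩ := h.minS V' hV' x hx
  exact dich h.prj hxx (h.comm x ⟨U, hA, V', hV', hx⟩).symm hcc

/-- a projection of level `(·, V)` either contains the box or is orthogonal to it -/
theorem box_dichR {U : Subgroup A} {V : Subgroup B}
    {z : H →L[ℂ] H} (h : Box S R W cA cB U V z) (hV : V ∈ cB) {U' : Subgroup A} (hU' : U' ∈ cA)
    {x : H →L[ℂ] H} (hx : x ∈ Q S R W U' V) (hxx : x * x = x) : z * x = 0 ∨ z * x = z := by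
  obtain ⟨c, hcc⟩ := h.minR U' hU' x hx
  exact dich h.prj hxx (h.comm x ⟨U', hU', V, hV, hx⟩).symm hcc

end Vale.Agent.P092.H345
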