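import Vale.Agent.P092.H432.TA.Defs

/-!
P092 (helper345), [TA-5]: from commutativity of `𝒬` and minimal projections to boxes of
arbitrarily small levels.
-/

set_option linter.all false
set_option autoImplicit false

namespace Vale.Agent.P092.H345

open Vale.Agent.P092.H432.TA
open scoped InnerProductSpace
open ContinuousLinearMap Filter Topology

variable {H : Type*} [NormedAddCommGroup H] [InnerProductSpace ℂ H] [CompleteSpace H]
variable {A B : Type*} [Group A] [Group B]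
variable {S : A →* (H →L[ℂ] H)} {R : B →* (H →L[ℂ] H)} {W : Set (H →L[ℂ] H)}
variable {cA : Set (Subgroup A)} {cB : Set (Subgroup B)}

/-! ### Symmetry -/

theorem sys_symm (h : Sys S R W) : Sys R S W where
  Sadj := h.Radj
  Radj := h.Sadj
  SR a b := (h.SR b a).symm
  WS := h.WR
  WR := h.WS
  Wadj := h.Wadj

theorem mem_Q_symm {U : Subgroup A} {V : Subgroup B} {x : H →L[ℂ] H} :
    x ∈ Q S R W U V ↔ x ∈ Q R S W V U :=
  ⟨fun h => ⟨h.2.1, h.1, h.2.2⟩, fun h => ⟨h.2.1, h.1, h.2.2⟩⟩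

theorem mem_QQ_symm {x : H →L[ℂ] H} : x ∈ QQ S R W cA cB ↔ x ∈ QQ R S W cB cA :=
  ⟨fun ⟨U, hU, V, hV, h⟩ => ⟨V, hV, U, hU, mem_Q_symm.1 h⟩,
    fun ⟨U, hU, V, hV, h⟩ => ⟨V, hV, U, hU, mem_Q_symm.1 h⟩⟩

theorem erg_symm (h : Erg S R W cA cB) : Erg R S W cB cA where
  E1 U hU x hx := h.E2 U hU x (mem_Q_symm.1 hx)
  E2 V hV x hx := h.E1 V hV x (mem_Q_symm.1 hx)

theorem box_symm {U : Subgroup A} {V : Subgroup B} {z : H →L[ℂ] H}
    (h : Box S R W cA cB U V z) : Box R S W cB cA V U z where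
  U_mem := h.V_mem
  V_mem := h.U_mem
  mem := mem_Q_symm.1 h.mem
  prj := h.prj
  ne := h.ne
  comm x hx := h.comm x (mem_QQ_symm.2 hx)
  sepS := h.sepR
  sepR := h.sepS
  minS V' hV' x hx := h.minR V' hV' x (mem_Q_symm.1 hx)
  minR U' hU' x hx := h.minS U' hU' x (mem_Q_symm.1 hx)

/-! ### Conjugation -/

theorem mul_inv' (S : A →* (H →L[ℂ] H)) (a : A) : S a * S a⁻¹ = 1 := by
  rw [← map_mul, mul_inv_cancel, map_one]

theorem inv_mul' (S : A →* (H →L[ℂ] H)) (a : A) : S a⁻¹ * S a = 1 := by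
  rw [← map_mul, inv_mul_cancel, map_one]

theorem mul_inv_a (S : A →* (H →L[ℂ] H)) (a : A) (x : H →L[ℂ] H) : S a * (S a⁻¹ * x) = x := by
  rw [← mul_assoc, mul_inv', one_mul]

theorem inv_mul_a (S : A →* (H →L[ℂ] H)) (a : A) (x : H →L[ℂ] H) : S a⁻¹ * (S a * x) = x := by
  rw [← mul_assoc, inv_mul', one_mul]

/-- conjugation -/
noncomputable def ad (S : A →* (H →L[ℂ] H)) (a : A) (x : H →L[ℂ] H) : H →L[ℂ] H :=
  S a * x * S a⁻¹

theorem ad_def (a : A) (x : H →L[ℂ] H) : ad S a x = S a * x * S a⁻¹ := rfl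

theorem ad_mul (a : A) (x y : H →L[ℂ] H) : ad S a (x * y) = ad S a x * ad S a y := by
  simp only [ad, mul_assoc, inv_mul_a]

theorem ad_ad (a b : A) (x : H →L[ℂ] H) : ad S a (ad S b x) = ad S (a * b) x := by
  simp only [ad, mul_inv_rev, map_mul, mul_assoc]

theorem ad_one (x : H →L[ℂ] H) : ad S 1 x = x := by
  simp only [ad, map_one, inv_one, one_mul, mul_one]

theorem ad_zero (a : A) : ad S a (0 : H →L[ℂ] H) = 0 := by
  simp only [ad, mul_zero, zero_mul]

theorem ad_smul (a : A) (c : ℂ) (x : H →L[ℂ] H) : ad S a (c • x) = c • ad S a x := by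
  simp only [ad, mul_smul_comm, smul_mul_assoc]

theorem ad_inv_ad (a : A) (x : H →L[ℂ] H) : ad S a⁻¹ (ad S a x) = x := by
  rw [ad_ad, inv_mul_cancel, ad_one]

theorem ad_ad_inv (a : A) (x : H →L[ℂ] H) : ad S a (ad S a⁻¹ x) = x := by
  rw [ad_ad, mul_inv_cancel, ad_one]

theorem ad_ne_zero {a : A} {x : H →L[ℂ] H} (h : x ≠ 0) : ad S a x ≠ 0 := fun h0 => h (by
  rw [← ad_inv_ad (S := S) a x, h0, ad_zero])

theorem adj_ad (hS : ∀ a, adjoint (S a) = S a⁻¹) (a : A) (x : H →L[ℂ] H) :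
    adjoint (ad S a x) = ad S a (adjoint x) := by
  have e : ∀ x y : H →L[ℂ] H, adjoint (x * y) = adjoint y * adjoint x := fun x y =>
    ContinuousLinearMap.adjoint_comp x y
  rw [ad, e, e, hS, hS, inv_inv, ad, mul_assoc]

theorem prj_ad (hS : ∀ a, adjoint (S a) = S a⁻¹) (a : A) {x : H →L[ℂ] H} (h : Prj x) :
    Prj (ad S a x) where
  idem := by rw [← ad_mul, h.idem]
  adj := by rw [adj_ad hS, h.adj]

theorem ad_comm (hS : Sys S R W) (a : A) (b : B) (x : H →L[ℂ] H) :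
    ad S a (ad R b x) = ad R b (ad S a x) := by
  have h1 : R b⁻¹ * S a⁻¹ = S a⁻¹ * R b⁻¹ := (hS.SR _ _).symm
  simp only [ad]
  calc S a * (R b * x * R b⁻¹) * S a⁻¹ = (S a * R b) * x * (R b⁻¹ * S a⁻¹) := by
        simp only [mul_assoc]
    _ = (R b * S a) * x * (S a⁻¹ * R b⁻¹) := by rw [h1, hS.SR]
    _ = _ := by simp only [mul_assoc]

theorem ad_eq {U : Subgroup A} {V : Subgroup B} {x : H →L[ℂ] H} (hx : x ∈ Q S R W U V) {a : A}
    (ha : a ∈ U) : ad S a x = x := by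
  rw [ad, hx.1 a ha, mul_assoc, mul_inv', mul_one]

theorem comm_of_ad {a : A} {x : H →L[ℂ] H} (h : ad S a x = x) : S a * x = x * S a := by
  calc S a * x = ad S a x * S a := by rw [ad, mul_assoc, inv_mul', mul_one]
    _ = _ := by rw [h]

/-! ### The algebras `Q U V` -/

theorem Q_mono {U U' : Subgroup A} {V V' : Subgroup B} (hU : U' ≤ U) (hV : V' ≤ V)
    {x : H →L[ℂ] H} (hx : x ∈ Q S R W U V) : x ∈ Q S R W U' V' :=
  ⟨fun a ha => hx.1 a (hU ha), fun b hb => hx.2.1 b (hV hb), hx.2.2⟩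

theorem Q_mul {U : Subgroup A} {V : Subgroup B} {x y : H →L[ℂ] H} (hx : x ∈ Q S R W U V)
    (hy : y ∈ Q S R W U V) : x * y ∈ Q S R W U V := by
  refine ⟨fun a ha => ?_, fun b hb => ?_, fun w hw => ?_⟩
  · rw [← mul_assoc, hx.1 a ha, mul_assoc, hy.1 a ha, mul_assoc]
  · rw [← mul_assoc, hx.2.1 b hb, mul_assoc, hy.2.1 b hb, mul_assoc]
  · rw [← mul_assoc, hx.2.2 w hw, mul_assoc, hy.2.2 w hw, mul_assoc]

theorem Q_adS (hS : Sys S R W) {U : Subgroup A} {V : Subgroup B} {x : H →L[ℂ] H}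
    (hx : x ∈ Q S R W U V) {a : A} {U' : Subgroup A} (h : ∀ g, g ∈ U' → a⁻¹ * g * a ∈ U) :
    ad S a x ∈ Q S R W U' V := by
  refine ⟨fun g hg => ?_, fun b hb => ?_, fun w hw => ?_⟩
  · have h1 := hx.1 _ (h g hg)
    refine comm_of_ad ?_
    rw [ad_ad]
    have h2 : g * a = a * (a⁻¹ * g * a) := by group
    rw [h2, ← ad_ad, ad_eq hx (h g hg)]
  · refine comm_of_ad (S := R) ?_
    rw [← ad_comm hS]
    congr 1
    exact ad_eq (mem_Q_symm.1 hx) hb
  · simp only [ad]
    calc w * (S a * x * S a⁻¹) = (w * S a) * x * S a⁻¹ := by simp only [mul_assoc]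
      _ = S a * (w * x) * S a⁻¹ := by rw [hS.WS w hw]; simp only [mul_assoc]
      _ = S a * x * (w * S a⁻¹) := by rw [hx.2.2 w hw]; simp only [mul_assoc]
      _ = _ := by rw [hS.WS w hw]; simp only [mul_assoc]

theorem Q_adR (hS : Sys S R W) {U : Subgroup A} {V : Subgroup B} {x : H →L[ℂ] H}
    (hx : x ∈ Q S R W U V) {b : B} {V' : Subgroup B} (h : ∀ g, g ∈ V' → b⁻¹ * g * b ∈ V) :
    ad R b x ∈ Q S R W U V' :=
  mem_Q_symm.2 (Q_adS (sys_symm hS) (mem_Q_symm.1 hx) h)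

theorem QV_adS (hS : Sys S R W) (hA : GIn cA) {V : Subgroup B} {x : H →L[ℂ] H}
    (hx : x ∈ QV S R W cA V) (a : A) : ad S a x ∈ QV S R W cA V := by
  obtain ⟨U, hU, hx⟩ := hx
  obtain ⟨U', hU', h⟩ := hA.conj U hU a
  exact ⟨U', hU', Q_adS hS hx fun g hg => (h g).1 hg⟩

theorem QV_le_QQ {V : Subgroup B} (hV : V ∈ cB) {x : H →L[ℂ] H} (hx : x ∈ QV S R W cA V) :
    x ∈ QQ S R W cA cB := by
  obtain ⟨U, hU, hx⟩ := hx
  exact ⟨U, hU, V, hV, hx⟩

theorem QQ_adS (hS : Sys S R W) (hA : GIn cA) {x : H →L[ℂ] H}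
    (hx : x ∈ QQ S R W cA cB) (a : A) : ad S a x ∈ QQ S R W cA cB := by
  obtain ⟨U, hU, V, hV, hx⟩ := hx
  exact QV_le_QQ hV (QV_adS hS hA ⟨U, hU, hx⟩ a)

theorem QQ_adR (hS : Sys S R W) (hB : GIn cB) {x : H →L[ℂ] H}
    (hx : x ∈ QQ S R W cA cB) (b : B) : ad R b x ∈ QQ S R W cA cB :=
  mem_QQ_symm.2 (QQ_adS (sys_symm hS) hB (mem_QQ_symm.1 hx) b)

theorem QQ_mul (hA : GIn cA) (hB : GIn cB) {x y : H →L[ℂ] H}
    (hx : x ∈ QQ S R W cA cB) (hy : y ∈ QQ S R W cA cB) : x * y ∈ QQ S R W cA cB := by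
  obtain ⟨U, hU, V, hV, hx⟩ := hx
  obtain ⟨U', hU', V', hV', hy⟩ := hy
  exact ⟨U ⊓ U', hA.inf U hU U' hU', V ⊓ V', hB.inf V hV V' hV',
    Q_mul (Q_mono inf_le_left inf_le_left hx) (Q_mono inf_le_right inf_le_right hy)⟩

/-- the stabiliser -/
def stab (S : A →* (H →L[ℂ] H)) (z : H →L[ℂ] H) : Subgroup A where
  carrier := {a | ad S a z = z}
  one_mem' := ad_one z
  mul_mem' {a b} ha hb := by
    change ad S (a * b) z = z
    rw [← ad_ad]
    change ad S b z = z at hb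
    rw [hb]; exact ha
  inv_mem' {a} ha := by
    change ad S a⁻¹ z = z
    change ad S a z = z at ha
    conv_lhs => rw [← ha]
    exact ad_inv_ad a z

theorem mem_stab {z : H →L[ℂ] H} {a : A} : a ∈ stab S z ↔ ad S a z = z := Iff.rfl

theorem prj_mul {e f : H →L[ℂ] H} (he : Prj e) (hf : Prj f) (h : e * f = f * e) :
    Prj (e * f) where
  idem := by
    calc e * f * (e * f) = e * (f * e) * f := by simp only [mul_assoc]
      _ = (e * e) * (f * f) := by rw [← h]; simp only [mul_assoc]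
      _ = _ := by rw [he.idem, hf.idem]
  adj := by
    have e1 : ∀ x y : H →L[ℂ] H, adjoint (x * y) = adjoint y * adjoint x := fun x y =>
      ContinuousLinearMap.adjoint_comp x y
    rw [e1, he.adj, hf.adj, h]

/-- a scalar projection is trivial -/
theorem eq_one_of_scalar {e : H →L[ℂ] H} (he : e * e = e) (h0 : e ≠ 0) {c : ℂ}
    (h : e = c • (1 : H →L[ℂ] H)) : e = 1 := by
  have h1 : c • e = e := by
    conv_rhs => rw [← he]
    conv_rhs => enter [1]; rw [h]
    rw [smul_mul_assoc, one_mul]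
  have h2 : (c - 1) • e = 0 := by rw [sub_smul, one_smul, h1, sub_self]
  rcases smul_eq_zero.1 h2 with h3 | h3
  · rw [sub_eq_zero.1 h3, one_smul] at h; exact h
  · exact absurd h3 h0

/-- dichotomy for commuting projections below a minimal one -/
theorem dich {e x : H →L[ℂ] H} (he : Prj e) (hx : x * x = x) (hc : e * x = x * e) {c : ℂ}
    (h : e * x * e = c • e) : e * x = 0 ∨ e * x = e := by
  by_cases h0 : e = 0
  · left; rw [h0, zero_mul]
  have h1 : e * x = c • e := by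
    rw [← h, hc, mul_assoc, he.idem]
  have h2 : e * x * (e * x) = e * x := by
    calc e * x * (e * x) = e * (x * e) * x := by simp only [mul_assoc]
      _ = (e * e) * (x * x) := by rw [← hc]; simp only [mul_assoc]
      _ = _ := by rw [he.idem, hx]
  have h3 : (c * c) • e = c • e := by
    rw [h1, smul_mul_smul_comm, he.idem] at h2
    exact h2
  have h4 : (c * c - c) • e = 0 := by rw [sub_smul, h3, sub_self]
  rcases smul_eq_zero.1 h4 with h5 | h5
  · have h6 : c * (c - 1) = 0 := by rw [mul_sub, mul_one, h5]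
    rcases mul_eq_zero.1 h6 with h7 | h7
    · left; rw [h1, h7, zero_smul]
    · right; rw [h1, sub_eq_zero.1 h7, one_smul]
  · exact absurd h5 h0

/-- If `e` commutes with its conjugates and `e (ad a e) e ∈ ℂ e` then translates are equal or
orthogonal. -/
theorem eq_or_orth {e : H →L[ℂ] H} (he : Prj e) (hc : ∀ a, e * ad S a e = ad S a e * e)
    (hm : ∀ a, ∃ c : ℂ, e * ad S a e * e = c • e) (a : A) :
    e * ad S a e = 0 ∨ ad S a e = e := by
  have hid : ∀ a, ad S a e * ad S a e = ad S a e := fun a => by rw [← ad_mul, he.idem]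
  obtain ⟨c, h⟩ := hm a
  rcases dich he (hid a) (hc a) h with h1 | h1
  · left; exact h1
  obtain ⟨c', h'⟩ := hm a⁻¹
  rcases dich he (hid a⁻¹) (hc a⁻¹) h' with h2 | h2
  · left
    have h3 := congrArg (ad S a) h2
    rw [ad_mul, ad_ad_inv, ad_zero] at h3
    rw [hc, h3]
  · right
    have h3 := congrArg (ad S a) h2
    rw [ad_mul, ad_ad_inv] at h3
    rw [← h3, ← hc, h1]

/-! ### Joins -/

theorem comm_proj (K : Submodule ℂ H) [K.HasOrthogonalProjection] (T : H →L[ℂ] H)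
    (h1 : ∀ v ∈ K, T v ∈ K) (h2 : ∀ v ∈ K, adjoint T v ∈ K) :
    T * K.starProjection = K.starProjection * T := by
  ext v
  change T (K.starProjection v) = K.starProjection (T v)
  have h3 : T v = T (K.starProjection v) + T (v - K.starProjection v) := by
    rw [← map_add]; congr 1; abel
  have h4 : v - K.starProjection v ∈ Kᗮ := K.sub_starProjection_mem_orthogonal v
  have h5 : T (v - K.starProjection v) ∈ Kᗮ := by
    rw [Submodule.mem_orthogonal]
    intro u hu
    rw [← ContinuousLinearMap.adjoint_inner_left]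
    exact (Submodule.mem_orthogonal _ _).1 h4 _ (h2 u hu)
  have h6 : T (K.starProjection v) ∈ K := h1 _ (K.starProjection_apply_mem v)
  rw [h3, map_add, Submodule.starProjection_eq_self_iff.2 h6,
    (Submodule.starProjection_apply_eq_zero_iff K).2 h5, add_zero]

/-- The join of the `R`-translates of a nonzero `x ∈ Q U V` is `1`. -/
theorem joinR (hS : Sys S R W) {U : Subgroup A} {V : Subgroup B}
    (hE : ∀ x ∈ Q S R W U ⊤, ∃ c : ℂ, x = c • (1 : H →L[ℂ] H)) {x f : H →L[ℂ] H}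
    (hx : x ∈ Q S R W U V) (hx0 : x ≠ 0) (hf : f ≠ 0) : ∃ b, x * R b * f ≠ 0 := by
  by_contra hcon
  push Not at hcon
  let K : Submodule ℂ H := ⨅ b : B, LinearMap.ker ((x * R b : H →L[ℂ] H) : H →ₗ[ℂ] H)
  have memK : ∀ v, v ∈ K ↔ ∀ b, x (R b v) = 0 := fun v => by
    simp only [K, Submodule.mem_iInf, LinearMap.mem_ker]
    rfl
  have hKc : IsClosed (K : Set H) := by
    have : (K : Set H) = ⋂ b, {v | x (R b v) = 0} := by
      ext v; simp only [SetLike.mem_coe, memK, Set.mem_iInter, Set.mem_setOf_eq]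
    rw [this]
    exact isClosed_iInter fun b => isClosed_eq (by fun_prop) continuous_const
  haveI : CompleteSpace K := hKc.completeSpace_coe
  have hR : ∀ b, ∀ v ∈ K, R b v ∈ K := fun b v hv => (memK _).2 fun b' => by
    have : R b' (R b v) = R (b' * b) v := by rw [map_mul]; rfl
    rw [this]; exact (memK v).1 hv _
  have hSa : ∀ a ∈ U, ∀ v ∈ K, S a v ∈ K := fun a ha v hv => (memK _).2 fun b => by
    have h1 : R b (S a v) = S a (R b v) := by
      have := congrArg (fun T : H →L[ℂ] H => T v) (hS.SR a b)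
      exact this.symm
    have h2 : x (S a (R b v)) = S a (x (R b v)) := by
      have := congrArg (fun T : H →L[ℂ] H => T (R b v)) (hx.1 a ha)
      exact this.symm
    rw [h1, h2, (memK v).1 hv, map_zero]
  have hWw : ∀ w ∈ W, ∀ v ∈ K, w v ∈ K := fun w hw v hv => (memK _).2 fun b => by
    have h1 : R b (w v) = w (R b v) := by
      have := congrArg (fun T : H →L[ℂ] H => T v) (hS.WR w hw b)
      exact this.symm
    have h2 : x (w (R b v)) = w (x (R b v)) := by
      have := congrArg (fun T : H →L[ℂ] H => T (R b v)) (hx.2.2 w hw)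
      exact this.symm
    rw [h1, h2, (memK v).1 hv, map_zero]
  have hP : K.starProjection ∈ Q S R W U ⊤ := by
    refine ⟨fun a ha => comm_proj K _ (hSa a ha) fun v hv => ?_,
      fun b _ => comm_proj K _ (hR b) fun v hv => ?_,
      fun w hw => comm_proj K _ (hWw w hw) fun v hv => ?_⟩
    · rw [hS.Sadj]; exact hSa _ (U.inv_mem ha) v hv
    · rw [hS.Radj]; exact hR _ v hv
    · exact hWw _ (hS.Wadj w hw) v hv
  obtain ⟨c, hc⟩ := hE _ hP
  obtain ⟨η, hη⟩ : ∃ η, f η ≠ 0 := by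
    by_contra h; push Not at h; exact hf (ContinuousLinearMap.ext h)
  have hfK : f η ∈ K := (memK _).2 fun b => by
    have := congrArg (fun T : H →L[ℂ] H => T η) (hcon b)
    exact this
  have h1 : K.starProjection (f η) = f η := Submodule.starProjection_eq_self_iff.2 hfK
  have h2 : K.starProjection = 1 := by
    refine eq_one_of_scalar ?_ ?_ hc
    · exact Submodule.isIdempotentElem_starProjection K
    · intro h0; rw [h0] at h1; exact hη h1.symm
  refine hx0 (ContinuousLinearMap.ext fun v => ?_)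
  have h3 : v ∈ K := by
    rw [← Submodule.starProjection_eq_self_iff, h2]; rfl
  have h4 := (memK v).1 h3 1
  rw [map_one] at h4
  exact h4

theorem joinS (hS : Sys S R W) {U : Subgroup A} {V : Subgroup B}
    (hE : ∀ x ∈ Q S R W ⊤ V, ∃ c : ℂ, x = c • (1 : H →L[ℂ] H)) {x f : H →L[ℂ] H}
    (hx : x ∈ Q S R W U V) (hx0 : x ≠ 0) (hf : f ≠ 0) : ∃ a, x * S a * f ≠ 0 :=
  joinR (sys_symm hS) (fun x hx => hE x (mem_Q_symm.1 hx)) (mem_Q_symm.1 hx) hx0 hf

end Vale.Agent.P092.H345
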