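import Vale.Agent.P092.H345.Alg

/-!
P092 (helper345), [TA-5]: orthogonal sums and the average-and-compress trick.
-/

set_option linter.all false
set_option autoImplicit false

namespace Vale.Agent.P092.H345

open Vale.Agent.P092.H432.TA
open scoped InnerProductSpace
open ContinuousLinearMap Filter Topology

variable {H : Type*} [NormedAddCommGroup H] [InnerProductSpace ℂ H] [CompleteSpace H]
variable {A B : Type*} [Group A] [Group B]
variable {S : A →* (H →L[ℂ] H)} {R : B →* (H →L[ℂ] H)} {W : Set (H →L[ℂ] H)}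
variable {cA : Set (Subgroup A)} {cB : Set (Subgroup B)}

theorem prj_inner {p : H →L[ℂ] H} (hp : Prj p) (v w : H) : ⟪p v, w⟫_ℂ = ⟪v, p w⟫_ℂ := by
  conv_lhs => rw [← hp.adj]
  rw [ContinuousLinearMap.adjoint_inner_left]

theorem orth_family {ι : Type*} (p : ι → (H →L[ℂ] H)) (hp : ∀ i, Prj (p i))
    (ho : ∀ i j, i ≠ j → p i * p j = 0) :
    OrthogonalFamily ℂ (fun i => LinearMap.range (p i : H →ₗ[ℂ] H))
      fun i => (LinearMap.range (p i : H →ₗ[ℂ] H)).subtypeₗᵢ := by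
  rintro i j hij ⟨_, v, rfl⟩ ⟨_, w, rfl⟩
  change ⟪p i v, p j w⟫_ℂ = 0
  rw [prj_inner (hp i)]
  have : p i (p j w) = 0 := congrArg (fun T : H →L[ℂ] H => T w) (ho i j hij)
  rw [this, inner_zero_right]

theorem norm_sum_sq {ι : Type*} {p : ι → (H →L[ℂ] H)} (hp : ∀ i, Prj (p i))
    (ho : ∀ i j, i ≠ j → p i * p j = 0) (v : ι → H) (hv : ∀ i, p i (v i) = v i) (s : Finset ι) :
    ‖∑ i ∈ s, v i‖ ^ 2 = ∑ i ∈ s, ‖v i‖ ^ 2 :=
  (orth_family p hp ho).norm_sum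
    (fun i => (⟨v i, ⟨v i, hv i⟩⟩ : LinearMap.range (p i : H →ₗ[ℂ] H))) s

theorem bessel {ι : Type*} {p : ι → (H →L[ℂ] H)} (hp : ∀ i, Prj (p i))
    (ho : ∀ i j, i ≠ j → p i * p j = 0) (ζ : H) (s : Finset ι) :
    ∑ i ∈ s, ‖p i ζ‖ ^ 2 ≤ ‖ζ‖ ^ 2 := by
  have hpp : ∀ i v, p i (p i v) = p i v := fun i v =>
    congrArg (fun T : H →L[ℂ] H => T v) (hp i).idem
  have h1 := norm_sum_sq hp ho (fun i => p i ζ) (fun i => hpp i ζ) s
  set X : ℝ := ∑ i ∈ s, ‖p i ζ‖ ^ 2 with hX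
  have h2 : (X : ℂ) = ⟪∑ i ∈ s, p i ζ, ζ⟫_ℂ := by
    rw [sum_inner, hX]
    push_cast
    refine Finset.sum_congr rfl fun i _ => ?_
    rw [← hpp i ζ, prj_inner (hp i), inner_self_eq_norm_sq_to_K, hpp]
    rfl
  have h3 : X ≤ ‖∑ i ∈ s, p i ζ‖ * ‖ζ‖ := by
    have h4 : ‖(X : ℂ)‖ ≤ ‖∑ i ∈ s, p i ζ‖ * ‖ζ‖ := by
      rw [h2]; exact norm_inner_le_norm _ _
    rw [Complex.norm_real, Real.norm_eq_abs] at h4
    exact (le_abs_self X).trans h4
  nlinarith [norm_nonneg (∑ i ∈ s, p i ζ), norm_nonneg ζ,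
    sq_nonneg (‖∑ i ∈ s, p i ζ‖ - ‖ζ‖)]

/-- Sums of uniformly bounded operators in orthogonal corners. -/
theorem orthsum {ι : Type*} {p y : ι → (H →L[ℂ] H)} (hp : ∀ i, Prj (p i))
    (ho : ∀ i j, i ≠ j → p i * p j = 0) (hy : ∀ i, p i * y i * p i = y i) {C : ℝ}
    (hC : ∀ i, ‖y i‖ ≤ C) : ∃ Y : H →L[ℂ] H, ∀ ζ, HasSum (fun i => y i ζ) (Y ζ) := by
  rcases isEmpty_or_nonempty ι with hι | ⟨⟨i₀⟩⟩
  · exact ⟨0, fun ζ => by simpa using hasSum_empty⟩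
  have hC0 : 0 ≤ C := (norm_nonneg _).trans (hC i₀)
  have hpp : ∀ i v, p i (p i v) = p i v := fun i v =>
    congrArg (fun T : H →L[ℂ] H => T v) (hp i).idem
  have hy1 : ∀ i v, p i (y i v) = y i v := fun i v => by
    have : p i * y i = y i := by
      calc p i * y i = p i * (p i * y i * p i) := by rw [hy]
        _ = (p i * p i) * y i * p i := by simp only [mul_assoc]
        _ = _ := by rw [(hp i).idem, hy]
    exact congrArg (fun T : H →L[ℂ] H => T v) this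
  have hy2 : ∀ i v, y i (p i v) = y i v := fun i v => by
    have : y i * p i = y i := by
      calc y i * p i = (p i * y i * p i) * p i := by rw [hy]
        _ = p i * y i * (p i * p i) := by simp only [mul_assoc]
        _ = _ := by rw [(hp i).idem, hy]
    exact congrArg (fun T : H →L[ℂ] H => T v) this
  have hb1 : ∀ i ζ, ‖y i ζ‖ ^ 2 ≤ C ^ 2 * ‖p i ζ‖ ^ 2 := fun i ζ => by
    have : ‖y i ζ‖ ≤ C * ‖p i ζ‖ := by
      rw [← hy2]; exact (y i).le_of_opNorm_le (hC i) _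
    calc ‖y i ζ‖ ^ 2 ≤ (C * ‖p i ζ‖) ^ 2 := by gcongr
      _ = _ := by ring
  have hb2 : ∀ ζ (s : Finset ι), ∑ i ∈ s, ‖y i ζ‖ ^ 2 ≤ C ^ 2 * ‖ζ‖ ^ 2 := fun ζ s =>
    calc ∑ i ∈ s, ‖y i ζ‖ ^ 2 ≤ ∑ i ∈ s, C ^ 2 * ‖p i ζ‖ ^ 2 :=
          Finset.sum_le_sum fun i _ => hb1 i ζ
      _ = C ^ 2 * ∑ i ∈ s, ‖p i ζ‖ ^ 2 := by rw [Finset.mul_sum]
      _ ≤ _ := by gcongr; exact bessel hp ho ζ s
  have hsum : ∀ ζ, Summable fun i => y i ζ := fun ζ => by
    refine ((orth_family p hp ho).summable_iff_norm_sq_summable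
      (fun i => (⟨y i ζ, ⟨y i ζ, hy1 i ζ⟩⟩ : LinearMap.range (p i : H →ₗ[ℂ] H)))).2 ?_
    exact summable_of_sum_le (fun i => sq_nonneg _) (hb2 ζ)
  have hbound : ∀ s : Finset ι, ‖∑ i ∈ s, y i‖ ≤ C := fun s => by
    refine ContinuousLinearMap.opNorm_le_bound _ hC0 fun ζ => ?_
    rw [ContinuousLinearMap.sum_apply]
    have h1 : ‖∑ i ∈ s, y i ζ‖ ^ 2 ≤ (C * ‖ζ‖) ^ 2 := by
      rw [norm_sum_sq hp ho (fun i => y i ζ) (fun i => hy1 i ζ) s, mul_pow]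
      exact hb2 ζ s
    exact (pow_le_pow_iff_left₀ (norm_nonneg _) (by positivity) two_ne_zero).1 h1
  let Y : H →L[ℂ] H := ContinuousLinearMap.ofTendstoOfBoundedRange (l := (atTop : Filter (Finset ι)))
    (fun ζ => ∑' i, y i ζ) (fun s => ∑ i ∈ s, y i)
    (by
      rw [tendsto_pi_nhds]
      intro ζ
      have := (hsum ζ).hasSum
      simp only [ContinuousLinearMap.sum_apply]
      exact this)
    (by
      rw [isBounded_iff_forall_norm_le]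
      refine ⟨C, ?_⟩
      rintro _ ⟨s, rfl⟩
      exact hbound s)
  exact ⟨Y, fun ζ => (hsum ζ).hasSum⟩

theorem hasSum_apply {ι : Type*} {y : ι → (H →L[ℂ] H)} {Y : H →L[ℂ] H}
    (h : ∀ ζ, HasSum (fun i => y i ζ) (Y ζ)) (T : H →L[ℂ] H) (ζ : H) :
    HasSum (fun i => T (y i ζ)) (T (Y ζ)) := (h ζ).mapL T

theorem norm_S (hS : ∀ a, adjoint (S a) = S a⁻¹) (a : A) (v : H) : ‖S a v‖ = ‖v‖ := by
  have h1 : ⟪S a v, S a v⟫_ℂ = ⟪v, v⟫_ℂ := by
    rw [← ContinuousLinearMap.adjoint_inner_right, hS]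
    have : S a⁻¹ (S a v) = v := congrArg (fun T : H →L[ℂ] H => T v) (inv_mul' S a)
    rw [this]
  rw [inner_self_eq_norm_sq_to_K, inner_self_eq_norm_sq_to_K] at h1
  have h2 : ‖S a v‖ ^ 2 = ‖v‖ ^ 2 := by exact_mod_cast h1
  exact (pow_left_inj₀ (norm_nonneg _) (norm_nonneg _) two_ne_zero).1 h2

theorem norm_ad_le (hS : ∀ a, adjoint (S a) = S a⁻¹) (a : A) (y : H →L[ℂ] H) :
    ‖ad S a y‖ ≤ ‖y‖ := by
  refine ContinuousLinearMap.opNorm_le_bound _ (norm_nonneg _) fun v => ?_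
  change ‖S a (y (S a⁻¹ v))‖ ≤ _
  rw [norm_S hS]
  refine (y.le_opNorm _).trans ?_
  rw [norm_S hS]

theorem exists_out (U : Subgroup A) (a : A) : ∃ u ∈ U, a = (a : A ⧸ U).out * u := by
  refine ⟨((a : A ⧸ U).out)⁻¹ * a, ?_, by group⟩
  rw [← QuotientGroup.eq]; exact Quotient.out_eq' _

theorem one_out (U : Subgroup A) : ((1 : A) : A ⧸ U).out ∈ U := by
  have : (1 : A)⁻¹ * ((1 : A) : A ⧸ U).out ∈ U := by
    rw [← QuotientGroup.eq, QuotientGroup.out_eq']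
  simpa using this

theorem ad_out {U : Subgroup A} {y : H →L[ℂ] H} (hy : ∀ a ∈ U, ad S a y = y) (a : A) :
    ad S a y = ad S (a : A ⧸ U).out y := by
  obtain ⟨u, hu, h⟩ := exists_out U a
  conv_lhs => rw [h]
  rw [← ad_ad, hy u hu]

theorem ad_smul_out {U : Subgroup A} {y : H →L[ℂ] H} (hy : ∀ a ∈ U, ad S a y = y) (a : A)
    (q : A ⧸ U) : ad S (a • q).out y = ad S a (ad S q.out y) := by
  have h6 : a • q = ((a * q.out : A) : A ⧸ U) := by
    conv_lhs => rw [← QuotientGroup.out_eq' q]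
    rfl
  rw [h6, ← ad_out hy, ← ad_ad]

theorem orth_out {U : Subgroup A} {z : H →L[ℂ] H}
    (hsep : ∀ a, a ∉ U → z * (S a * z * S a⁻¹) = 0) (q q' : A ⧸ U) (hq : q ≠ q') :
    ad S q.out z * ad S q'.out z = 0 := by
  have h1 : q.out⁻¹ * q'.out ∉ U := fun h => hq (by
    rw [← QuotientGroup.eq, QuotientGroup.out_eq', QuotientGroup.out_eq'] at h; exact h)
  have h2 := congrArg (ad S q.out) (hsep _ h1)
  rw [ad_mul, ad_zero] at h2
  have h3 : ad S q.out (S (q.out⁻¹ * q'.out) * z * S (q.out⁻¹ * q'.out)⁻¹) = ad S q'.out z := by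
    change ad S q.out (ad S (q.out⁻¹ * q'.out) z) = _
    rw [ad_ad, mul_inv_cancel_left]
  rw [h3] at h2
  exact h2

/-- the sum of the translates -/
theorem trick_sum (hS : ∀ a, adjoint (S a) = S a⁻¹) {U : Subgroup A} {z y : H →L[ℂ] H}
    (hz : Prj z) (hsep : ∀ a, a ∉ U → z * (S a * z * S a⁻¹) = 0) (hzy : z * y * z = y) :
    ∃ Y : H →L[ℂ] H, ∀ ζ, HasSum (fun q : A ⧸ U => ad S q.out y ζ) (Y ζ) := by
  refine orthsum (p := fun q : A ⧸ U => ad S q.out z) (fun q => prj_ad hS _ hz)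
    (fun q q' hq => orth_out hsep q q' hq) (fun q => ?_) (C := ‖y‖) (fun q => norm_ad_le hS _ _)
  rw [← ad_mul, ← ad_mul, hzy]

theorem smul_term {U : Subgroup A} {y : H →L[ℂ] H} (hy : ∀ a ∈ U, ad S a y = y) (a : A) (ζ : H)
    (q : A ⧸ U) : ad S (a • q).out y (S a ζ) = S a (ad S q.out y ζ) := by
  rw [ad_smul_out hy]
  have h1 : ad S a (ad S q.out y) * S a = S a * ad S q.out y := by
    rw [ad_def a (ad S q.out y), mul_assoc, inv_mul', mul_one]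
  exact congrArg (fun T : H →L[ℂ] H => T ζ) h1

theorem sum_commS {U : Subgroup A} {y Y : H →L[ℂ] H} (hy : ∀ a ∈ U, ad S a y = y)
    (hY : ∀ ζ, HasSum (fun q : A ⧸ U => ad S q.out y ζ) (Y ζ)) (a : A) : S a * Y = Y * S a := by
  refine ContinuousLinearMap.ext fun ζ => ?_
  have h1 : HasSum (fun q : A ⧸ U => S a (ad S q.out y ζ)) (S a (Y ζ)) := hasSum_apply hY (S a) ζ
  obtain ⟨f, hf⟩ : ∃ f : A ⧸ U → H, ∀ q, f q = ad S q.out y (S a ζ) := ⟨_, fun q => rfl⟩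
  have h2 : HasSum f (Y (S a ζ)) := by
    have := hY (S a ζ)
    rwa [← funext hf] at this
  obtain ⟨e, he⟩ : ∃ e : Equiv.Perm (A ⧸ U), ∀ q, e q = a • q :=
    ⟨MulAction.toPerm a, fun q => rfl⟩
  have h3 : HasSum (f ∘ e) (Y (S a ζ)) := (Equiv.hasSum_iff e).2 h2
  have h4 : f ∘ e = fun q => S a (ad S q.out y ζ) := by
    funext q
    rw [Function.comp_apply, hf, he, smul_term hy]
  rw [h4] at h3
  exact h1.unique h3

theorem sum_comm' {ι : Type*} {y : ι → (H →L[ℂ] H)} {Y : H →L[ℂ] H}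
    (hY : ∀ ζ, HasSum (fun i => y i ζ) (Y ζ)) (T : H →L[ℂ] H) (hT : ∀ i, T * y i = y i * T) :
    T * Y = Y * T := by
  ext ζ
  have h1 := hasSum_apply hY T ζ
  have h2 := hY (T ζ)
  have h4 : ∀ i, T (y i ζ) = y i (T ζ) := fun i =>
    congrArg (fun T : H →L[ℂ] H => T ζ) (hT i)
  simp only [h4] at h1
  exact h1.unique h2

theorem sum_mem (hS : Sys S R W) {U : Subgroup A} {V : Subgroup B} {y Y : H →L[ℂ] H}
    (hy : y ∈ Q S R W U V) (hY : ∀ ζ, HasSum (fun q : A ⧸ U => ad S q.out y ζ) (Y ζ)) :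
    Y ∈ Q S R W ⊤ V := by
  refine ⟨fun a _ => sum_commS (fun a ha => ad_eq hy ha) hY a, fun b hb => ?_, fun w hw => ?_⟩
  · refine sum_comm' hY _ fun q => ?_
    refine comm_of_ad (S := R) ?_
    rw [← ad_comm hS]
    congr 1
    exact ad_eq (mem_Q_symm.1 hy) hb
  · refine sum_comm' hY _ fun q => ?_
    have h6 : ad S q.out y ∈ Q S R W ⊥ V :=
      Q_adS hS hy fun g hg => by
        rw [Subgroup.mem_bot.1 hg]; simpa using U.one_mem
    exact h6.2.2 w hw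

/-- The trick. -/
theorem trick (hS : Sys S R W) {U : Subgroup A} {V : Subgroup B}
    (hE : ∀ x ∈ Q S R W ⊤ V, ∃ c : ℂ, x = c • (1 : H →L[ℂ] H)) {z y : H →L[ℂ] H} (hz : Prj z)
    (hzU : ∀ a ∈ U, ad S a z = z)
    (hsep : ∀ a, a ∉ U → z * (S a * z * S a⁻¹) = 0) (hy : y ∈ Q S R W U V)
    (hzy : z * y * z = y) : ∃ c : ℂ, y = c • z := by
  obtain ⟨Y, hYs⟩ := trick_sum hS.Sadj hz hsep hzy
  obtain ⟨c, hc⟩ := hE Y (sum_mem hS hy hYs)
  refine ⟨c, ?_⟩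
  have hp1 : ad S ((1 : A) : A ⧸ U).out z = z := hzU _ (one_out U)
  have hY1 : ad S ((1 : A) : A ⧸ U).out y = y := ad_eq hy (one_out U)
  have h6 : z * y = y := by
    calc z * y = z * (z * y * z) := by rw [hzy]
      _ = (z * z) * y * z := by simp only [mul_assoc]
      _ = _ := by rw [hz.idem, hzy]
  ext ζ
  have h1 := hasSum_apply hYs z ζ
  have h2 : HasSum (fun q : A ⧸ U => z (ad S q.out y ζ)) (y ζ) := by
    have h3 : ∀ q : A ⧸ U, q ≠ ((1 : A) : A ⧸ U) → z (ad S q.out y ζ) = 0 := fun q hq => by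
      have h4 : z * ad S q.out y = 0 := by
        conv_lhs => rw [← hp1, ← hzy, ad_mul, ad_mul, mul_assoc (ad S q.out z), ← mul_assoc,
          orth_out hsep _ _ (Ne.symm hq), zero_mul]
      exact congrArg (fun T : H →L[ℂ] H => T ζ) h4
    have h5 : z (ad S ((1 : A) : A ⧸ U).out y ζ) = y ζ := by
      rw [hY1]
      exact congrArg (fun T : H →L[ℂ] H => T ζ) h6
    rw [← h5]
    exact hasSum_single _ h3
  have h7 := h2.unique h1
  rw [h7, hc]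
  simp

end Vale.Agent.P092.H345
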